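import Crest.Agent.X212.Flo2.Lev

/-!
# Row 212, LV-OK (helper97): the family at a level

The necks of `p.lev l P` are the necks `p.lk l K` of `P`.  `lev : LevStmt`, richness, sizes, and the
properties of the necks at the walls.
-/

set_option autoImplicit false
set_option linter.unusedSectionVars false
noncomputable section
open scoped Manifold ContDiff Topology InnerProductSpace
open MeasureTheory Set Function Filter

namespace Crest.Agent.X212.Lvo97
open An Cyf70 Sw Flo2 Sob92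
open M (Mf)

variable {κ lam ν : Type} [Fintype κ] [Fintype lam] [Fintype ν] [DecidableEq ν]

section rt
variable {X : Mf 4} {nc nc' : ℕ} {b : Bg X.I X.M κ lam ν nc} {b' : Bg X.I X.M κ lam ν nc'}
  {ε ε' : Ty κ lam ν} (h : ε = ε') (K : Nk ε.en b)

/-- points of an equal type -/
def cy (h : ε = ε') (y : ε'.en.Y.M) : ε.en.Y.M := h ▸ y

theorem rt_p : (rt h K).p = K.p := by subst h; rfl
theorem rt_q : (rt h K).q = K.q := by subst h; rfl
theorem rt_tm : (rt h K).tm = K.tm := by subst h; rfl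
theorem rt_ψ (y : ε'.en.Y.M) (s : ℝ) : (rt h K).ψ (y, s) = K.ψ (cy h y, s) := by subst h; rfl
theorem rt_img (S : Set ℝ) : (rt h K).ψ '' univ ×ˢ S = K.ψ '' univ ×ˢ S := by subst h; rfl
theorem rt_tgt : (rt h K).ψ.target = K.ψ.target := by subst h; rfl
theorem rt_ng {K' : Nk ε.en b'} (e : K'.ng = K.ng) : (rt h K').ng = (rt h K).ng := by
  subst h; exact e
theorem rt_asyG (s : Bool) (u : X.M → ℂ) : (rt h K).AsyG s u ↔ K.AsyG s u := by subst h; rfl
theorem rt_hol (c : Cfg X.M κ ν) (s : ℝ) :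
    En3.hol (En3.sl ((rt h K).pb c) s) = En3.hol (En3.sl (K.pb c) s) := by subst h; rfl
theorem sm_cy : ContMDiff ε'.en.Y.I ε.en.Y.I ∞ (cy h) := by subst h; exact contMDiff_id

end rt

section bg
variable {X : Mf 4} {nc : ℕ} {b : Bg X.I X.M κ lam ν nc} {w : ℝ}

theorem tst_re {Ξ : R4 → X.M} {η : R4 → Eu ν} : ({ b with w := w } : Bg _ _ κ lam ν nc).Tst Ξ η ↔
    b.Tst Ξ η := ⟨fun h => ⟨h.1, h.2, h.3⟩, fun h => ⟨h.1, h.2, h.3⟩⟩

theorem adm_re {c : Cfg X.M κ ν} : ({ b with w := w } : Bg _ _ κ lam ν nc).Adm c ↔ b.Adm c :=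
  ⟨fun h => ⟨h.1, h.2, h.3, h.4⟩, fun h => ⟨h.1, h.2, h.3, h.4⟩⟩

theorem ok_re (h : b.OK) (hw : 0 ≤ w) : ({ b with w := w } : Bg _ _ κ lam ν nc).OK :=
  { h with
    w := hw
    ct := fun j => { h.ct j with η := tst_re.2 (h.ct j).η } }

end bg

variable {𝓔 : Type} [Fintype 𝓔] {ty : 𝓔 → Ty κ lam ν} {Sl : Type} [Fintype Sl] {g : Gc κ lam ν}
  (p : Plc ty Sl g) (l : Lv 𝓔) {nc nc' : ℕ} {P : Pz g.X nc fun i => (g.ty i).en}
  {P' : Pz g.X nc' fun i => (g.ty i).en} {i : g.N} {j : 𝓔 × Sl}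

/-- the neck at the level -/
def lk (K : Nk (g.ty i).en P.bg) : Nk (l.e ty (p.ι i).1) (p.lev l P).bg :=
  (rt (p.ty i).symm K).re l.w (bm l.μ) (l.S _) (l.ψ _)

theorem lev_nk (i : g.N) : (p.lev l P).nk (p.ι i) = (P.nk i).map (lk p l) := by
  have k : ∀ i' (h : p.ι i' = p.ι i), (P.nk i').map (rt ((p.ty _).symm.trans
      (congrArg (fun j : 𝓔 × Sl => ty j.1) h))) = (P.nk i).map (rt (p.ty i).symm) := fun i' h => by
    obtain rfl := p.inj h
    rfl
  have e : ∃ i', p.ι i' = p.ι i := ⟨i, rfl⟩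
  have e' : (p.rix P).nk (p.ι i) = (P.nk i).map (rt (p.ty i).symm) :=
    (dif_pos e).trans (k _ e.choose_spec)
  exact (congrArg (Option.map _) e').trans (Option.map_map ..)

theorem lev_none (h : j ∉ range p.ι) : (p.lev l P).nk j = none :=
  have e : (p.rix P).nk j = none := dif_neg h
  congrArg (Option.map _) e

theorem lk_mem {K : Nk (g.ty i).en P.bg} (h : K ∈ P.nk i) : lk p l K ∈ (p.lev l P).nk (p.ι i) := by
  rw [lev_nk]
  exact Option.mem_map_of_mem _ h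

theorem mem_lev {K : Nk (l.e ty (p.ι i).1) (p.lev l P).bg} (h : K ∈ (p.lev l P).nk (p.ι i)) :
    ∃ K₀ ∈ P.nk i, lk p l K₀ = K := by
  rwa [lev_nk, Option.mem_map] at h

/-- all necks at the level come from `P` -/
theorem all_lev {C : ∀ j : 𝓔 × Sl, Nk (l.e ty j.1) (p.lev l P).bg → Prop} :
    (∀ j, ∀ K ∈ (p.lev l P).nk j, C j K) ↔ ∀ i, ∀ K ∈ P.nk i, C (p.ι i) (lk p l K) := by
  refine ⟨fun h i K hK => h _ _ (lk_mem p l hK), fun h j K hK => ?_⟩
  by_cases e : j ∈ range p.ι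
  · obtain ⟨i, rfl⟩ := e
    obtain ⟨K, k, rfl⟩ := mem_lev p l hK
    exact h i K k
  · simp [lev_none p l e] at hK

section lk
variable (K : Nk (g.ty i).en P.bg)

theorem lk_p : (lk p l K).p = K.p := rt_p _ K
theorem lk_q : (lk p l K).q = K.q := rt_q _ K
theorem lk_tm : (lk p l K).tm = K.tm := rt_tm _ K
theorem lk_ψ (y : (l.e ty (p.ι i).1).Y.M) (s : ℝ) :
    (lk p l K).ψ (y, s) = K.ψ (cy (p.ty i).symm y, s) := rt_ψ _ K y s
theorem lk_img (S : Set ℝ) : (lk p l K).ψ '' univ ×ˢ S = K.ψ '' univ ×ˢ S := rt_img _ K S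
theorem lk_tgt : (lk p l K).ψ.target = K.ψ.target := rt_tgt _ K
theorem lk_J : (lk p l K).J = K.J := by unfold Nd18.Nk.J; rw [lk_p, lk_q]
theorem lk_far (s : Bool) (T : ℝ) : (lk p l K).far s T = K.far s T := by unfold Nk.far; rw [lk_J]
theorem lk_deep (d : ℝ) : (lk p l K).deep d = K.deep d := by unfold Nk.deep; rw [lk_p, lk_q]
theorem lk_inf (s : Bool) : (lk p l K).Inf s ↔ K.Inf s := by unfold Nk.Inf; rw [lk_p, lk_q]
theorem lk_asyG (s : Bool) (u : g.X.M → ℂ) : (lk p l K).AsyG s u ↔ K.AsyG s u := by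
  refine .trans ?_ (rt_asyG (p.ty i).symm K s u)
  rfl
theorem lk_hol (c : Cfg g.X.M κ ν) (s : ℝ) :
    En3.hol (En3.sl ((lk p l K).pb c) s) = En3.hol (En3.sl (K.pb c) s) := rt_hol _ K c s
theorem lk_ng {K' : Nk (g.ty i).en P'.bg} (e : K'.ng = K.ng) : (lk p l K').ng = (lk p l K).ng :=
  rt_ng (p.ty i).symm K e

end lk

theorem lev_inf (s : Bool) : (p.lev l P).Inf (p.ι i) s ↔ P.Inf i s :=
  ⟨fun ⟨_, h, k⟩ => let ⟨K, a, e⟩ := mem_lev p l h; ⟨K, a, (lk_inf p l K s).1 (e ▸ k)⟩,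
    fun ⟨K, h, k⟩ => ⟨_, lk_mem p l h, (lk_inf p l K s).2 k⟩⟩

theorem inf_lev {s : Bool} (h : (p.lev l P).Inf j s) : ∃ i, p.ι i = j ∧ P.Inf i s := by
  by_cases e : j ∈ range p.ι
  · obtain ⟨i, rfl⟩ := e
    exact ⟨i, rfl, (lev_inf p l s).1 h⟩
  · simp [Pz.Inf, lev_none p l e] at h

theorem lev_off : (p.lev l P).Off (p.ι i) ↔ P.Off i :=
  ⟨fun h K k => by simpa only [lk_p, lk_q] using h _ (lk_mem p l k), fun h K k => by
    obtain ⟨K, a, rfl⟩ := mem_lev p l k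
    simpa only [lk_p, lk_q] using h K a⟩

theorem off_lev (h : j ∉ range p.ι) : (p.lev l P).Off j := fun K k => by
  simp [lev_none p l h] at k

theorem lev_len : (p.lev l P).len (p.ι i) = P.len i := by
  rw [Pz.len, Pz.len, lev_nk]
  cases P.nk i <;> simp [lk_p, lk_q]

theorem lev_nk_none : (p.lev l P).nk (p.ι i) = none ↔ P.nk i = none := by
  rw [lev_nk, Option.map_eq_none_iff]

theorem lev_core (T : ℝ) : (p.lev l P).core T = P.core T := Set.ext fun x =>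
  ⟨fun h i s K k a => by
    have := h _ s _ (lk_mem p l k) ((lk_inf ..).2 a)
    rwa [lk_img, lk_far] at this, fun h j s K k => (all_lev p l
      (C := fun _ K => K.Inf s → x ∉ K.ψ '' univ ×ˢ K.far s T)).2 (fun i K k a => by
        rw [lk_img, lk_far]; exact h i s K k ((lk_inf ..).1 a)) j K k⟩

theorem lev_thick (d : ℝ) : (p.lev l P).thick d = P.thick d := Set.ext fun x =>
  (all_lev p l (C := fun _ K => x ∉ K.ψ '' univ ×ˢ K.deep d)).trans <| forall₃_congr fun i K _ => by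
    rw [lk_img, lk_deep]

theorem lev_al (u : g.X.M → ℂ) : (p.lev l P).Al u ↔ P.Al u := by
  refine and_congr_right fun _ => .trans ⟨fun h j K k s => h j s K k, fun h j s K k => h j K k s⟩
    (.trans (all_lev p l (C := fun _ K => ∀ s, K.Inf s → K.AsyG s u)) ?_)
  simp only [lk_inf, lk_asyG]
  exact ⟨fun h j s K k => h j K k s, fun h j K k s => h j s K k⟩

theorem lev_ok (h : P.OK) (he : ∀ ε, (l.e ty ε).OK) (hw : 0 ≤ l.w) : (p.lev l P).OK where
  bg := ok_re h.bg hw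
  vol := h.vol
  con := h.con
  en j := he j.1
  dj j j' e K k K' k' := by
    revert j' K'
    refine (all_lev p l (C := fun j K => ∀ j', j ≠ j' → ∀ K' ∈ (p.lev l P).nk j',
      Disjoint K.ψ.target K'.ψ.target)).2 (fun i K k j' e K' k' => ?_) j K k
    refine (all_lev p l (C := fun j' K' => p.ι i ≠ j' →
      Disjoint (lk p l K).ψ.target K'.ψ.target)).2 (fun i' K' k' e => ?_) j' K' k' e
    rw [lk_tgt, lk_tgt]
    exact h.dj (fun e' => e (congrArg _ e')) K k K' k'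
  cpt T := lev_core p l T ▸ h.cpt T

variable {W : Type} (yt : l.YT ty W) {τ : Tm g W}

theorem lev_str {t : Tk g.k} (h : g.𝓕.Str t i) : (p.fam l yt τ).Str t (p.ι i) := by
  obtain ⟨K₀, k0, a, b, p0, q0, ℓ, V, v, l1, l2⟩ := h
  refine ⟨_, lk_mem p l k0, a, b, (lk_p ..).trans p0, (lk_q ..).trans q0, ℓ, V, v, l1,
    fun t ht => ?_⟩
  obtain ⟨m, K, k1, k2, k3, k4⟩ := l2 t ht
  exact ⟨m, _, lk_mem p l k1, (lk_p ..).trans k2, (lk_q ..).trans k3, fun y s hs =>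
    (lk_ψ ..).trans ((k4 _ s hs).trans (lk_ψ ..).symm)⟩

variable (κ lam ν) in
/-- **LEV-OK** -/
theorem lev : LevStmt κ lam ν := fun g hg 𝓔 _ ty Sl _ p l W yt τ he hw hτ => by
  have h := hg.fam
  have u : ∀ t, t ∈ g.𝓕.Q := fun t => hg.Q ▸ mem_univ t
  have sb : ∀ {N : Type} [NormedAddCommGroup N] [NormedSpace ℝ N] {f : Tk g.k → g.X.M → N},
      Prm93.SB g.s.bg.F.toPre g.𝓕.Q f → Prm93.SB g.s.bg.F.toPre univ f := fun h => hg.Q ▸ h
  exact
  { site := lev_ok p l h.site he hw.le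
    ends := (all_lev p l).2 fun i K k => by simpa only [lk_inf] using h.ends i K k
    w0 := hw
    opn := isOpen_univ
    con := isPreconnected_univ
    ne := univ_nonempty
    ok := fun t _ => ⟨lev_ok p l (h.ok t (u t)).toOK he hw.le, fun w => (hτ.sf w t).1,
      fun w => (hτ.sf w t).2.1, fun w => (hτ.sf w t).2.2, fun w j => tst_re.2 (hτ.η w t j)⟩
    B := fun t _ => h.B t (u t)
    m := fun t _ => h.m t (u t)
    w := fun _ _ => rfl
    mix := fun t _ => h.mix t (u t)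
    PS := fun t _ => h.PS t (u t)
    SP := fun t _ => h.SP t (u t)
    PSi := fun t _ => h.PSi t (u t)
    SiP := fun t _ => h.SiP t (u t)
    SSi := fun t _ => h.SSi t (u t)
    SiS := fun t _ => h.SiS t (u t)
    sS := fun a b => sb (h.sS a b)
    sSi := fun a b => sb (h.sSi a b)
    sc := fun a b k => sb (h.sc a b k)
    sdv := fun a => sb (h.sdv a)
    dens := let ⟨ρ, a, b⟩ := h.dens; ⟨ρ, sb a, fun t _ => b t (u t)⟩
    sA := fun a => sb (h.sA a)
    sms := sb h.sms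
    som := sb h.som
    sfo := hτ.sb
    cfo := fun w => let ⟨r, a⟩ := hτ.cf w; ⟨r, fun t _ x hx => a t x (lev_core p l r ▸ hx)⟩
    en := fun t _ => (all_lev p l).2 fun i K k => let ⟨_, a, b⟩ := h.en t (u t) i K k
      ⟨_, lk_mem p l a, lk_ng p l K b⟩
    nk := fun t _ j hj => by
      by_cases e : j ∈ range p.ι
      · obtain ⟨i, rfl⟩ := e
        exact (h.nk t (u t) i ((lev_nk_none p l).1 hj)).imp
          (fun a => a.mono fun _ => (lev_off p l).2) (lev_str p l yt)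
      · exact .inl (.of_forall fun _ => off_lev p l e)
    ct := fun t _ t' _ => h.ct t (u t) t' (u t')
    η0 := fun j => (hg.Q ▸ h.η0 j : JC univ fun t => ((g.P t).bg.ct j).η)
    η := hτ.jc }

/-! ### terms -/

theorem ok_map {W' : Type} (h : τ.OK) (f : W' → W) : (τ.map f).OK :=
  ⟨fun w => h.sf (f w), fun w => h.sb (f w), fun w => h.cf (f w), fun w => h.nk (f w),
    fun w => h.η (f w), fun w => h.jc (f w), fun w => h.bd (f w)⟩

theorem rich_map {W' : Type} (h : τ.Rich) {f : W' → W} (hf : Surjective f) : (τ.map f).Rich :=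
  fun t ht => ⟨fun x hx => hf.exists.1 ((h t ht).1 x hx), fun j η hη => hf.exists.1 ((h t ht).2 j η hη)⟩

/-- richness at the level -/
theorem rich {W' : Type} (yt : l.YT ty W') (h : τ.Rich) {f : W' → W}
    (hf : ∀ w, ∃ w', f w' = w ∧ ∀ ε, yt w' ε = none) {t : Tk g.k} (ht : t ∈ g.dom) :
    ((p.fam l yt (τ.map f)).P t).Rich := by
  refine ⟨fun x hx => ?_, fun j η hη => ?_⟩
  · obtain ⟨w, a, b⟩ := (h t ht).1 x hx
    obtain ⟨w, rfl, c⟩ := hf w
    exact ⟨w, 1, one_ne_zero, a.trans (one_smul ℝ x).symm, fun i => c i.1, b⟩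
  · obtain ⟨w, a, b⟩ := (h t ht).2 j η (tst_re.1 hη)
    obtain ⟨w, rfl, c⟩ := hf w
    exact ⟨w, 1, one_ne_zero, a, fun i => c i.1, b.trans (by rw [one_smul])⟩

/-- richness for the index set `W × (terms on the necks)` -/
theorem rich_prod (h : τ.Rich) {t : Tk g.k} (ht : t ∈ g.dom) : ((p.fam l
    (Prod.snd : l.YT ty (W × ∀ ε, Option (l.e ty ε).YT)) (τ.map Prod.fst)).P t).Rich :=
  rich p l _ h (fun w => ⟨(w, fun _ => none), rfl, fun _ => rfl⟩) ht

theorem yt_mono {e : En3 κ lam ν} {T : e.YT} {k : ℕ} {s s' : ℝ} (h : T.Sz k s) (hs : s ≤ s') :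
    T.Sz k s' := fun j hj r => CB_mono (h j hj r) hs

/-- terms on necks are bounded -/
theorem yt_sz {e : En3 κ lam ν} (he : IsCompact e.S) (T : e.YT) (k : ℕ) : ∃ s, T.Sz k s := by
  obtain ⟨C, hC⟩ := Cb_of_hcs (F := e.D.F.toPre) T.sf (.of_compactSpace _)
  have hc : HasCompactSupport T.b := .of_support_subset_isCompact he T.S
  have : ∀ j, ∃ B, ∀ r, ‖iteratedDeriv j T.b r‖ ≤ B := fun j =>
    (T.sb.continuous_iteratedDeriv j (by exact_mod_cast le_top)).bounded_above_of_compact_support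
      (iteratedDeriv_eq_equiv_comp (f := T.b) ▸ (hc.iteratedFDeriv j).comp_left (map_zero _))
  choose B hB using this
  refine ⟨(∑ j ∈ Finset.range (k + 1), |B j|) * |C k|, fun j hj r w hw y => ?_⟩
  rw [show (fun y => iteratedDeriv j T.b r • T.fo y) = iteratedDeriv j T.b r • T.fo from rfl,
    Prm93.Dw_smul _ _ T.sf, Pi.smul_apply, norm_smul]
  exact mul_le_mul (((hB j r).trans (le_abs_self _)).trans (Finset.single_le_sum
    (f := fun j => |B j|) (fun _ _ => abs_nonneg _) (Finset.mem_range_succ_iff.2 hj)))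
    ((hC.2 k w hw y).trans (le_abs_self _)) (norm_nonneg _) (by positivity)

/-- the terms are bounded uniformly in the parameter -/
theorem sz (he : ∀ ε, (l.e ty ε).OK) (hτ : τ.OK) (w : W) :
    ∃ r, 0 ≤ r ∧ ∀ t, ((p.fam l yt τ).P t).Sz 6 w r := by
  have : ∀ ε, ∃ s, ∀ T ∈ yt w ε, T.Sz 6 s := fun ε => by
    rcases yt w ε with _ | T
    · exact ⟨0, by simp⟩
    · simpa using yt_sz (he ε).S T 6
  choose s hs using this
  obtain ⟨r, hr⟩ := hτ.bd w
  have p0 : 0 ≤ ∑ ε, |s ε| := by positivity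
  have p1 : r ≤ |r| + ∑ ε, |s ε| := by linarith [le_abs_self r]
  refine ⟨|r| + ∑ ε, |s ε|, by positivity, fun t => ⟨CB_mono (hr t).1 p1, (hr t).2.1.trans p1,
    fun j => ((hr t).2.2 j).trans p1, fun i T hT => yt_mono (hs _ T hT) ?_⟩⟩
  linarith [abs_nonneg r, le_abs_self (s i.1), Finset.single_le_sum (f := fun ε => |s ε|)
    (fun _ _ => abs_nonneg _) (Finset.mem_univ i.1)]

/-! ### the necks at the walls -/

variable {β : Plc.BC (ty := ty) (Sl := Sl) l} {c : Fin g.k}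

theorem foN (hτ : τ.OK) (hi : g.wl c = some i) : (p.cel l yt τ β).FoN (p.ι i) := fun w => by
  obtain ⟨r, hr⟩ := hτ.nk w c i hi
  refine ⟨r, fun t _ K k' x hx => ?_⟩
  obtain ⟨K, k, rfl⟩ := mem_lev p l k'
  exact (congrArg _ (lk_ψ p l K x.1 x.2)).trans (hr t K k _ ⟨trivial, lk_deep p l K r ▸ hx.2⟩)

theorem nul_of (h : ∀ t, ∀ K ∈ (g.P t).nk i, ∀ u, (g.P t).Al u → ∀ s ∈ K.J,
    ∃ χ : (g.en i).Y.M → ℝ, Sm (g.en i).Y.I χ ∧
      ∀ y, u (K.ψ (y, s)) = Complex.exp (χ y * Complex.I)) : (p.cel l yt τ β).Nul (p.ι i) :=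
  fun t _ K k' u hu s hs => by
    obtain ⟨K, k, rfl⟩ := mem_lev p l k'
    obtain ⟨χ, a, b⟩ := h t K k u ((lev_al p l u).1 hu) s (lk_J p l K ▸ hs)
    exact ⟨_, a.comp (sm_cy (p.ty i).symm), fun y => (congrArg u (lk_ψ ..)).trans (b _)⟩

theorem holB_of (hw : 0 ≤ l.w) {C : ℝ} (h : ∀ t, ∀ K ∈ (g.P t).nk i, ∀ c, (g.P t).bg.Adm c →
    K.deep 3 ≠ ∅ → ∃ s ∈ K.deep 2, s ∉ K.deep 3 ∧ |En3.hol (En3.sl (K.pb c) s)| ≤
      C * (1 + (∫⁻ x in (g.P t).thick 3, ‖(g.P t).bg.fc c x‖ₑ ^ 2 ∂(g.P t).bg.F.μ).toReal)) :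
    (p.cel l yt τ β).HolB (p.ι i) |C| := fun t _ K k' c hc e hd => by
  obtain ⟨K, k, rfl⟩ := mem_lev p l k'
  obtain ⟨s, a1, a2, a3⟩ := h t K k c (adm_re.1 hc) (lk_deep p l K 3 ▸ hd)
  refine ⟨s, (lk_deep p l K 2).symm ▸ a1, (lk_deep p l K 3).symm ▸ a2, ?_⟩
  refine ((congrArg _ (lk_hol p l K c s)).trans_le a3).trans (mul_le_mul (le_abs_self _)
    (add_le_add_right (ENNReal.toReal_mono e (le_trans ?_ le_self_add)) _) (by positivity)
    (abs_nonneg _))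
  rw [← lev_thick p l 3]
  refine lintegral_mono fun x => ?_
  rw [← ofReal_norm, ← ENNReal.ofReal_pow (norm_nonneg _)]
  refine ENNReal.ofReal_le_ofReal (le_trans (le_add_of_nonneg_right ?_) (le_add_of_nonneg_right ?_))
  · exact mul_nonneg hw (by positivity)
  · positivity

/-- necks that are not in the site are finite -/
theorem fin_nk (hg : g.OK) (hi : g.s.nk i = none) (t : Tk g.k) {K : Nk (g.ty i).en (g.P t).bg}
    (k : K ∈ (g.P t).nk i) : ∃ a b, K.p = some a ∧ K.q = some b := by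
  rcases hg.fam.nk t (hg.Q ▸ mem_univ t) i hi with h | ⟨K₀, k0, a, b, h, h', -⟩
  · exact let ⟨a, h⟩ := h.self_of_nhds K k; ⟨_, _, h⟩
  · obtain rfl : K₀ = K := Option.mem_unique k0 k
    exact ⟨a, b, h, h'⟩

/-- **the field `hol` of `Pw.WOK`** -/
theorem wall {mk : Mk κ lam ν} (hg : g.OK) (he : (g.en i).OK mk) (hτ : τ.OK) (hw : 0 ≤ l.w)
    (hi : g.wl c = some i) : (∃ B, (p.cel l yt τ β).HolB (p.ι i) B) ∧
      (p.cel l yt τ β).FoN (p.ι i) ∧ (p.cel l yt τ β).Nul (p.ι i) := by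
  by_cases e : (g.en i).kd = .qhs
  · obtain ⟨-, -, z, -, h1⟩ := he.qhs e
    refine ⟨⟨_, holB_of p l yt hw (C := 0) fun t K k c _ hd => ?_⟩, foN p l yt hτ hi,
      nul_of p l yt fun t K k u hu s hs => (h1 (g.cl i)).lg _ ⟨fun y => ?_, fun _ => hu.1.2 _⟩⟩
    · obtain ⟨a, b, ha, hb⟩ := fin_nk hg (hg.wl _ i hi).1 t k
      obtain ⟨r, hr⟩ := nonempty_iff_ne_empty.2 hd
      simp only [Nk.deep, ha, hb, Nd18.Jv, Option.map_some, Option.mem_def, Option.some.injEq,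
        forall_eq', mem_ofPred_eq] at hr ⊢
      refine ⟨a + 5 / 2, ⟨by linarith, by linarith⟩, fun h => by linarith [h.1], ?_⟩
      simp [En3.hol, show (g.ty i).en.ζ = 0 from z]
    · exact (hu.1.1 _).comp y ((K.iso.sm.contMDiffAt (K.ψ.open_source.mem_nhds
        (K.src ▸ ⟨trivial, hs⟩))).comp y (contMDiffAt_id.prodMk contMDiffAt_const))
  · obtain ⟨h1, C, h2⟩ := hg.hol c i hi e
    exact ⟨⟨_, holB_of p l yt hw h2⟩, foN p l yt hτ hi, nul_of p l yt h1⟩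

end Crest.Agent.X212.Lvo97
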