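import Crest.Agent.X212.Lvo97.Main
import Crest.Agent.X212.Flo2.Lok
import Crest.Agent.X212.Sw88.C0

/-!
# Row 212, LV-OK (helper97): `LokStmt`
-/

set_option autoImplicit false
noncomputable section
open Set

namespace Crest.Agent.X212.Lvo97
open An Cyf70 Sw Flo2

variable {κ lam ν : Type} [Fintype κ] [Fintype lam] [Fintype ν] [DecidableEq ν]

/-- **LEV-OK** -/
theorem lok (mk : Mk κ lam ν) : LokStmt mk where
  fam := lev κ lam ν
  yt _ he T := yt_sz he.S T 6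
  sz _ _ _ _ _ _ _ p l _ yt _ he hτ := sz p l yt he hτ
  rich _ _ _ _ _ _ p l _ _ h _ ht := rich_prod p l h ht
  hol _ hg _ _ _ _ _ p l _ yt _ _ hw hτ _ i hi _ := wall p l yt hg.1 (hg.2 i) hτ hw.le hi
  sup g hg 𝓔 _ ty Sl _ p l he hw := by
    obtain ⟨C, h⟩ := Sw88.c0P (fun j : 𝓔 × Sl => l.e ty j.1) g.C hw (1 * (1 + Fintype.card (𝓔 × Sl)))
    refine ⟨C, fun W yt τ hτ q hq β y hy => ?_⟩
    have b := (hg.bd _ hy.2).1
    have s := hy.1.1.2
    refine h _ _ (p.lev l (g.P y.1.1)) ((lev κ lam ν g hg 𝓔 ty Sl p l W yt τ he hw hτ).ok _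
      trivial).toOK ⟨b.1, b.2, b.3, b.4⟩ rfl _ s.toAdm fun x => ⟨(s.eq x trivial).1, ?_⟩
    exact ((congrArg (fun z => ‖z - _‖) (s.eq x trivial).2).trans (congrArg norm
      (add_sub_cancel_left _ _))).trans_le (Sw88.norm_terms _ (hq _) _ x)

end Crest.Agent.X212.Lvo97
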